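import Vale.Agent.P052.Embed

namespace Vale.Agent.Results.P052.BorsukNine

/-- Borsuk's conjecture fails in every dimension `d ≥ 9`. -/
theorem result (d : ℕ) (hd : 9 ≤ d) :
    ∃ Y : Set (EuclideanSpace ℝ (Fin d)), Bornology.IsBounded Y ∧ 0 < Metric.diam Y ∧
      ¬ ∃ S : Fin (d + 1) → Set (EuclideanSpace ℝ (Fin d)),
        Y = ⋃ i, S i ∧ ∀ i, Metric.diam (S i) < Metric.diam Y := by
  obtain ⟨k, rfl⟩ := Nat.exists_eq_add_of_le hd
  refine ⟨Vale.Agent.P052.YY k, Vale.Agent.P052.bounded_YY k, ?_, ?_⟩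
  · rw [Vale.Agent.P052.diam_YY]
    positivity
  · rintro ⟨S, hS, h⟩
    rw [Vale.Agent.P052.diam_YY] at h
    exact Vale.Agent.P052.no_cover k S hS h

end Vale.Agent.Results.P052.BorsukNine
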